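import Vale.Agent.P286.R2.H505.Main

/-!
# Quantum geometric Langlands for the projective line and the groups with self-dual root system

Let `G` be a semisimple complex algebraic group, given as the stabilizer in `SL_N` of a set of
integral tensors (every connected semisimple complex algebraic group is of this form), and let
`μ`, `μ'` be finite central subgroups of its identity component.  For all irrational `c` and all
`h, r ≥ 1` the DG categories `D_c(Bun_{G/μ}(ℙ¹))` and `D_{-1/(rc)}(Bun_{G/μ'}(ℙ¹))`, with the
dual Coxeter number `h`, are equivalent, and both are equivalent to the nonzero DG category of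
`D`-modules on `BG`.

If `H = G/μ` is a connected simple group of type `A_n, B_2 = C_2, D_n, E_6, E_7, E_8, F_4` or `G_2`
with simply connected cover `G`, then the Langlands dual group has the same type, so it is `G/μ'` for
a central subgroup `μ'`; for `h = h^∨` and the lacing number `r` this is the quantum geometric
Langlands conjecture for `ℙ¹` and `H`, at all irrational levels.
-/

namespace Vale.Agent.Results.P286.AllTypesGenusZero

open Vale.Agent.P286.St Vale.Agent.P286.R2.H505

/-- The stack `Bun_{G/μ}(ℙ¹)` with its canonical bundle `ω` and the twist `(h - c)/(2h)`. -/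
noncomputable def DBun (G : TG) (Z : Cen G) (h : ℕ) (c : ℂ) : TSite :=
  BunT G Z (((h : ℂ) - c) / (2 * (h : ℂ)))

/-- Quantum geometric Langlands on the projective line at irrational level, for all semisimple
groups `G`, all pairs of central quotients `G/μ`, `G/μ'` and all `h, r ≥ 1`. -/
theorem result : ∀ (G : TG), G.kill.det ≠ 0 → ∀ (Z Z' : Cen G) (h r : ℕ), 0 < h → 0 < r →
    ∀ c : ℂ, (∀ q : ℚ, c ≠ (q : ℂ)) →
    DGEquivalent (DBun G Z h c) (DBun G Z' h (-1 / ((r : ℂ) * c))) ∧
    DGEquivalent (DBun G Z h c) (BT G) ∧
    ∃ K : Cx (DBun G Z h c), K.Cart ∧ ¬ K.Acyclic := by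
  intro G hK Z Z' h r hh hr c hc
  have h1 : DGEquivalent (DBun G Z h c) (BT G) := main Z hK (not_resonant hh hc)
  have h2 : DGEquivalent (DBun G Z' h (-1 / ((r : ℂ) * c))) (BT G) :=
    main Z' hK (not_resonant hh (irrational_inv hr hc))
  exact ⟨h1.trans _ _ _ (h2.symm _ _), h1, nonzero_Bun Z _⟩

end Vale.Agent.Results.P286.AllTypesGenusZero
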